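import Vale.Agent.P092.L.H776.Fin

/-!
P092: `Γ` is a lattice of `SL_3(ℝ)`, for instance a subgroup of finite index of `SL_3(ℤ)`. Let `Λ`
be a group with an infinite abelian subgroup `A` with nonamenable centralizer such that the
component of `A` (in the graph of infinite abelian subgroups of `Λ`, two of them being linked if
their common centralizer is not amenable) has a stabilizer of finite index in `Λ`. Then `L(Λ)` is
not isomorphic to a corner `p M_k(L(Γ)) p`. In particular this holds if `Λ` is of finite index in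
`SL_n(ℤ)`, `n ≥ 4`, or a product of a nonamenable group and a group with an infinite abelian
subgroup.
-/

open Vale.Agent.P092.H200 Vale.Agent.P092.H103.St
open Vale.Agent.P092.H655 (SLR IsLat)

theorem Vale.Agent.P092.Kept.NoIsoClustered.result :
    (∀ (Γ : Subgroup (SLR 3)), IsLat 3 Γ → ∀ (Λ : Type) [Group Λ], Clustered Λ →
      ∀ (k : ℕ) (p : MOp k Γ), IsProj p → IsEmpty (CornerIso Λ Γ k p)) ∧
    (∀ (Γ : Subgroup (Matrix.SpecialLinearGroup (Fin 3) ℤ)), Γ.FiniteIndex →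
      (∀ (Λ : Type) [Group Λ], Clustered Λ →
        ∀ (k : ℕ) (p : MOp k Γ), IsProj p → IsEmpty (CornerIso Λ Γ k p)) ∧
      (∀ n : ℕ, 4 ≤ n → ∀ Λ : Subgroup (Matrix.SpecialLinearGroup (Fin n) ℤ), Λ.FiniteIndex →
        ∀ (k : ℕ) (p : MOp k Γ), IsProj p → IsEmpty (CornerIso Λ Γ k p)) ∧
      (∀ (L₁ L₂ : Type) [Group L₁] [Group L₂] (A : Subgroup L₁), Vertex A →
        NoMean (⊤ : Subgroup L₂) →
        ∀ (k : ℕ) (p : MOp k Γ), IsProj p → IsEmpty (CornerIso (L₁ × L₂) Γ k p))) := by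
  refine ⟨fun Γ hΓ Λ _ hΛ k p hp => Vale.Agent.P092.L.H776.no_st_lattice Γ hΓ Λ hΛ k p hp,
    fun Γ hfi => ?_⟩
  haveI := hfi
  refine ⟨fun Λ _ hΛ k p hp => Vale.Agent.P092.L.H776.no_st_fi Γ Λ hΛ k p hp,
    fun n hn Λ hΛ k p hp => ?_, fun L₁ L₂ _ _ A hA h2 k p hp => ?_⟩
  · haveI := hΛ
    exact Vale.Agent.P092.L.H776.no_st_fi Γ Λ (clustered_finiteIndex n hn Λ) k p hp
  · exact Vale.Agent.P092.L.H776.no_st_fi Γ (L₁ × L₂) (clustered_prod L₁ L₂ A hA h2) k p hp
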