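import Vale.Agent.P092.L.H859.TypeFin

/-!
P092, the type theorem: let `Γ` be a group which contains a discrete subgroup of `SL_3(ℝ)` with
finite index, and `Λ` a group which contains a lattice of a locally compact group `E` such that `E`
has a discrete subgroup with two commuting nonamenable subgroups, one of which has an infinite
abelian subgroup. Then `L(Λ)` does not embed in any amplification of `L(Γ)`. Examples of such `E`:
`SL_n(k)`, `n ≥ 4`, isometry groups of Witt index at least two, products `SL_m(k) × SL_n(k')`.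
-/

open Vale.Agent.P092.H655 (SLR)
open Vale.Agent.P092.L.H859.Ty

theorem Vale.Agent.P092.Kept.NoIsoPair.result :
    (∀ (Γ₀ : Subgroup (SLR 3)), DiscreteTopology Γ₀ → ∀ (Γ : Type) [Group Γ] (i : Γ₀ →* Γ),
      Function.Injective i → i.range.FiniteIndex →
      (∀ (E : Type) [Group E] [TopologicalSpace E] [IsTopologicalGroup E]
        [LocallyCompactSpace E] [SecondCountableTopology E] [T2Space E], HasPair E →
        ∀ Λ₀ : Subgroup E, IsLattice Λ₀ → ∀ (Λ : Type) [Group Λ] (j : Λ₀ →* Λ),
          Function.Injective j → NoEmb Γ Λ) ∧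
      (∀ (Λ : Type) [Group Λ], CommPair Λ → NoEmb Γ Λ)) ∧
    (∀ Γ : Subgroup (SLR 3), IsLattice Γ → Icc Γ) ∧
    (∀ (E : Type) [Group E] [TopologicalSpace E], FamE E → HasPair E) ∧
    (∀ (Λ : Type) [Group Λ], FamD Λ → CommPair Λ) :=
  Vale.Agent.P092.L.H859.type_fin
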