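import Vale.Agent.P092.H103.MainL

/-!
P092, stable form. (1) For all ICC groups `Γ`, `Λ`, every `n`, every projection `p` of `M_n(L(Λ))`
and every isomorphism `θ : L(Γ) → p M_n(L(Λ)) p` (so with `t = (Tr ⊗ τ)(p)` arbitrary), `p` has
trace `1` and `θ` is canonical if and only if the fourth power sums `F(g)` of the Fourier
coefficients of `θ(u_g)` are bounded below. (2) If `(Q, ε)` is a Kazhdan pair of `Γ` (for instance
for every ICC lattice as in the question) and `θ` is not of this form, then these sums are at most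
`(1 - ε²/2) F(1)` at some element of `Q`, and their random walk averages decay exponentially, at an
explicit rate. (3) For finitely generated ICC groups the averages tend to zero. (4) For finite
index subgroups of `SL_d(ℤ)`, `d ≥ 3`, without `-1`, and every finite generating set, the gap holds
unconditionally, with a constant which does not depend on `Λ`, `n`, `p`, `θ`. (5) The same holds
for every ICC lattice, uniform or not, of every locally compact group `G` to which a finite product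
of groups `SL_d(ℝ)`, `SL_e(ℂ)`, `d, e ≥ 3`, maps with large image, and every finite generating set
(these exist).
-/

open Vale.Agent.P092.H160 Vale.Agent.P092.H160.St Vale.Agent.P092.H885
open Vale.Agent.P092.H103 Vale.Agent.P092.H103.St

theorem Vale.Agent.P092.Kept.StableGap.result :
    (∀ (Γ Λ : Type) [Group Γ] [Group Λ],
      (∀ g : Γ, g ≠ 1 → Set.Infinite {y : Γ | ∃ h, y = h * g * h⁻¹}) →
      (∀ s : Λ, s ≠ 1 → Set.Infinite {y : Λ | ∃ h, y = h * s * h⁻¹}) →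
      ∀ (n : ℕ) (p : MOp n Λ), IsProj p → ∀ θ : CornerIso Γ Λ n p,
      ((mtr p = 1 ∧ CanonicalM θ) ↔ ∃ c : ℝ, 0 < c ∧ ∀ g, c ≤ mfourth (θ.toFun (u g))) ∧
      (∀ (Q : Finset Γ) (ε : ℝ), IsKazhdanPair Γ Q ε → (mtr p = 1 ∧ CanonicalM θ) ∨
        ((∃ s ∈ Q, mfourth (θ.toFun (u s)) ≤ (1 - ε ^ 2 / 2) * mfourth p) ∧
          ∀ (a b : Γ) (k : ℕ), (avg Q)^[k] (fun g => mfourth (θ.toFun (u (a * g * b)))) 1 ≤
            (1 - ε ^ 2 / (4 * Q.card)) ^ k * mfourth p)) ∧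
      (∀ Q : Finset Γ, Q.Nonempty → Subgroup.closure (Q : Set Γ) = ⊤ →
        (mtr p = 1 ∧ CanonicalM θ) ∨ ∀ a b : Γ, Filter.Tendsto
          (fun k : ℕ => (avg Q)^[k] (fun g => mfourth (θ.toFun (u (a * g * b)))) 1)
          Filter.atTop (nhds 0))) ∧
    (∀ (d : ℕ), 3 ≤ d → ∀ (Γ : Subgroup (Matrix.SpecialLinearGroup (Fin d) ℤ)) [Γ.FiniteIndex],
      (∀ g ∈ Γ, (g : Matrix (Fin d) (Fin d) ℤ) ≠ -1) →
      ∀ Q : Finset Γ, Subgroup.closure (Q : Set Γ) = ⊤ → HasGap Γ Q) ∧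
    (∀ (r s : ℕ) (d : Fin r → ℕ) (e : Fin s → ℕ), (∀ i, 3 ≤ d i) → (∀ j, 3 ≤ e j) →
      ∀ (G : Type) [Group G] [TopologicalSpace G] [IsTopologicalGroup G] [LocallyCompactSpace G]
        [SecondCountableTopology G] [T2Space G]
        (φ : ((∀ i, Matrix.SpecialLinearGroup (Fin (d i)) ℝ) ×
          (∀ j, Matrix.SpecialLinearGroup (Fin (e j)) ℂ)) →* G),
      Continuous φ → (mau φ).FiniteIndex →
      ∀ (Γ : Subgroup G) [DiscreteTopology Γ] [MeasurableSpace (G ⧸ Γ)] [BorelSpace (G ⧸ Γ)]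
        (ν : MeasureTheory.Measure (G ⧸ Γ)) [MeasureTheory.IsProbabilityMeasure ν],
      (∀ g : G, ν.map (fun x => g • x) = ν) →
      (∀ g : Γ, g ≠ 1 → Set.Infinite {y : Γ | ∃ h, y = h * g * h⁻¹}) →
      (∃ Q : Finset Γ, Subgroup.closure (Q : Set Γ) = ⊤) ∧
      ∀ Q : Finset Γ, Q.Nonempty → Subgroup.closure (Q : Set Γ) = ⊤ → HasGap Γ Q) :=
  ⟨fun _ _ _ _ hΓ hΛ _ _ hp θ => ⟨st_iff hΓ hΛ hp θ,
    fun _ _ hK => st_kazhdan hΓ hΛ hp θ hK, fun _ hQ hgen => st_soft hΓ hΛ hp θ hQ hgen⟩,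
    fun _ hd Γ _ hΓ Q hgen => st_sln hd Γ hΓ Q hgen,
    fun _ _ _ _ hd he _ _ _ _ _ _ _ φ hφ hfi Γ _ _ _ ν _ hν hicc =>
      lattice_gap hd he φ hφ hfi Γ ν hν hicc⟩
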